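import Vale.Agent.Lib.P308T.Red

/-!
P308T: choice of the pair (u,v) and the chain of degree sequences down to 0.
-/

namespace P308T

open P335h14

/-- one step of the self-reduction from `d` to `d'` -/
def Step {n : ℕ} (d d' : Fin n → ℕ) : Prop :=
  ∃ u v : Fin n, u ≠ v ∧ 1 ≤ d u ∧ 1 ≤ d v ∧ d' = lower d u v ∧
    0 < Nat.card {G : Omega d // G.1.Adj u v} ∧
    Nat.card {G : Omega d // G.1.Adj u v} = Nat.card {G : Omega d' // ¬ G.1.Adj u v} ∧
    Nat.card (Omega d) ≤ (n ^ 2 + 1) * Nat.card {G : Omega d // G.1.Adj u v} ∧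
    Nat.card (Omega d') ≤ (n ^ 2 + 1) * Nat.card {G : Omega d' // ¬ G.1.Adj u v}

theorem deg_pos_of_adj {n : ℕ} {d : Fin n → ℕ} (G : Omega d) {a b : Fin n} (h : G.1.Adj a b) :
    1 ≤ d a := by
  rw [← G.2 a]
  have : (G.1.neighborSet a).Nonempty := ⟨b, h⟩
  exact (Set.ncard_pos (Set.toFinite _)).mpr this

theorem exists_nbr {n : ℕ} {d : Fin n → ℕ} (G : Omega d) {a : Fin n} (h : 1 ≤ d a) :
    ∃ b, G.1.Adj a b := by
  rw [← G.2 a] at h
  obtain ⟨b, hb⟩ := (Set.ncard_pos (Set.toFinite _)).mp h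
  exact ⟨b, hb⟩

theorem exists_step {n : ℕ} (d : Fin n → ℕ) (hne : Nonempty (Omega d)) (hd : ∃ x, d x ≠ 0) :
    ∃ d', Step d d' := by
  obtain ⟨G⟩ := hne
  obtain ⟨x, hx⟩ := hd
  obtain ⟨v, -, hv⟩ := Finset.exists_max_image (Finset.univ : Finset (Fin n)) d ⟨x, Finset.mem_univ x⟩
  have hmax : ∀ w, d w ≤ d v := fun w => hv w (Finset.mem_univ w)
  have hv1 : 1 ≤ d v := le_trans (Nat.one_le_iff_ne_zero.mpr hx) (hmax x)
  obtain ⟨w, hw⟩ := exists_nbr G hv1
  have hw1 : 1 ≤ d w := deg_pos_of_adj G hw.symm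
  have hwv : w ≠ v := hw.ne'
  obtain ⟨u, hu, humin⟩ := Finset.exists_min_image
    ((Finset.univ : Finset (Fin n)).filter (fun z => z ≠ v ∧ 1 ≤ d z)) d
    ⟨w, by simp [hwv, hw1]⟩
  simp only [Finset.mem_filter, Finset.mem_univ, true_and] at hu humin
  have hmin : ∀ z, z ≠ v → 1 ≤ d z → d u ≤ d z := fun z h1 h2 => humin z ⟨h1, h2⟩
  have h2 := card_le_adj d hu.1 hu.2 hmax
  have h3 := card_le_nonadj d hu.1 hu.2 hv1 ⟨G⟩ hmin
  have h1 := card_adj_eq d hu.1 hu.2 hv1
  have hpos : 0 < Nat.card (Omega d) := by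
    haveI : Nonempty (Omega d) := ⟨G⟩
    exact Nat.card_pos
  refine ⟨lower d u v, u, v, hu.1, hu.2, hv1, rfl, ?_, h1, h2, h3⟩
  by_contra h0
  have : Nat.card {G : Omega d // G.1.Adj u v} = 0 := by omega
  rw [this] at h2
  omega

theorem sum_lower {n : ℕ} (d : Fin n → ℕ) {u v : Fin n} (huv : u ≠ v) (hu : 1 ≤ d u) (hv : 1 ≤ d v) :
    ∑ x, lower d u v x + 2 = ∑ x, d x := by
  have h : ∀ x, lower d u v x + ((if x = u then 1 else 0) + (if x = v then 1 else 0)) = d x := by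
    intro x
    unfold lower
    by_cases h1 : x = u
    · subst h1
      simp [huv]
      omega
    · by_cases h2 : x = v
      · subst h2
        simp [h1]
        omega
      · simp [h1, h2]
  have := Finset.sum_congr (s₁ := (Finset.univ : Finset (Fin n))) rfl (fun x _ => h x)
  rw [Finset.sum_add_distrib, Finset.sum_add_distrib] at this
  simp at this
  omega

theorem Step.nonempty {n : ℕ} {d d' : Fin n → ℕ} (h : Step d d') : Nonempty (Omega d') := by
  obtain ⟨u, v, -, -, -, -, hpos, heq, -, -⟩ := h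
  rw [heq] at hpos
  have := (Nat.card_pos_iff.mp hpos).1
  exact ⟨this.some.1⟩

theorem Step.sum {n : ℕ} {d d' : Fin n → ℕ} (h : Step d d') : ∑ x, d' x + 2 = ∑ x, d x := by
  obtain ⟨u, v, huv, hu, hv, rfl, -⟩ := h
  exact sum_lower d huv hu hv

theorem exists_chain_aux {n : ℕ} (k : ℕ) : ∀ d : Fin n → ℕ, Nonempty (Omega d) → ∑ x, d x ≤ 2 * k →
    ∃ (k' : ℕ) (D : ℕ → Fin n → ℕ), 2 * k' = ∑ x, d x ∧ D 0 = d ∧ D k' = 0 ∧
      ∀ s < k', Step (D s) (D (s + 1)) := by
  induction k with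
  | zero =>
    intro d _ hs
    refine ⟨0, fun _ => d, ?_, rfl, ?_, ?_⟩
    · omega
    · funext x
      have : d x ≤ ∑ y, d y := Finset.single_le_sum (f := d) (fun _ _ => Nat.zero_le _) (Finset.mem_univ x)
      simp
      omega
    · intro s hs
      omega
  | succ k ih =>
    intro d hne hs
    by_cases hd : ∃ x, d x ≠ 0
    · obtain ⟨d', hstep⟩ := exists_step d hne hd
      have hsum := hstep.sum
      obtain ⟨k', D, h1, h2, h3, h4⟩ := ih d' hstep.nonempty (by omega)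
      refine ⟨k' + 1, fun s => Nat.casesOn s d (fun t => D t), by omega, rfl, h3, ?_⟩
      intro s hs
      cases s with
      | zero =>
        show Step d (D 0)
        rw [h2]
        exact hstep
      | succ t =>
        show Step (D t) (D (t + 1))
        exact h4 t (by omega)
    · push_neg at hd
      refine ⟨0, fun _ => d, ?_, rfl, funext hd, ?_⟩
      · simp [hd]
      · intro s hs
        omega

theorem exists_chain {n : ℕ} (d : Fin n → ℕ) (hne : Nonempty (Omega d)) :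
    ∃ (k : ℕ) (D : ℕ → Fin n → ℕ), 2 * k = ∑ x, d x ∧ D 0 = d ∧ D k = 0 ∧
      ∀ s < k, Step (D s) (D (s + 1)) :=
  exists_chain_aux (∑ x, d x) d hne (by omega)

theorem deg_le {n : ℕ} {d : Fin n → ℕ} (G : Omega d) (v : Fin n) : d v ≤ n - 1 := by
  rw [← G.2 v]
  have h : G.1.neighborSet v ⊆ ({v}ᶜ : Set (Fin n)) := by
    intro w hw
    simp only [Set.mem_compl_iff, Set.mem_singleton_iff]
    exact (G.1.ne_of_adj hw).symm
  calc (G.1.neighborSet v).ncard ≤ ({v}ᶜ : Set (Fin n)).ncard := Set.ncard_le_ncard h (Set.toFinite _)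
    _ = n - 1 := by
      rw [Set.ncard_compl, Set.ncard_singleton, Nat.card_eq_fintype_card, Fintype.card_fin]

theorem card_omega_zero {n : ℕ} : Nat.card (Omega (0 : Fin n → ℕ)) = 1 := by
  rw [Nat.card_eq_one_iff_unique]
  refine ⟨⟨fun G H => ?_⟩, ⟨⟨⊥, fun v => by simp⟩⟩⟩
  have key : ∀ K : Omega (0 : Fin n → ℕ), K.1 = ⊥ := by
    intro K
    ext a b
    simp only [SimpleGraph.bot_adj, iff_false]
    intro hab
    have := deg_pos_of_adj K hab
    simp at this
  exact Subtype.ext ((key G).trans (key H).symm)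

end P308T
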