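import Vale.Agent.Lib.P308T.Defs
import Vale.Agent.Lib.P335_helper14.Chain

/-!
P308T units M1, M2, M3: exponential decay of the total variation distance
(submultiplicativity for doubly stochastic chains).
-/

namespace P308T

open P335h14

theorem pow_row_sum {Ω : Type*} [Fintype Ω] [DecidableEq Ω] (P : Matrix Ω Ω ℝ)
    (hrow : ∀ x, ∑ y, P x y = 1) (k : ℕ) (x : Ω) : ∑ y, (P ^ k) x y = 1 := by
  induction k generalizing x with
  | zero => simp [Matrix.one_apply]
  | succ k ih =>
    rw [pow_succ]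
    simp only [Matrix.mul_apply]
    rw [Finset.sum_comm]
    simp only [← Finset.mul_sum, hrow, mul_one]
    exact ih x

theorem pow_col_sum {Ω : Type*} [Fintype Ω] [DecidableEq Ω] (P : Matrix Ω Ω ℝ)
    (hcol : ∀ y, ∑ x, P x y = 1) (k : ℕ) (y : Ω) : ∑ x, (P ^ k) x y = 1 := by
  induction k generalizing y with
  | zero => simp [Matrix.one_apply]
  | succ k ih =>
    rw [pow_succ]
    simp only [Matrix.mul_apply]
    rw [Finset.sum_comm]
    simp only [← Finset.sum_mul, ih, one_mul]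
    exact hcol y

/-- UNIT M1 (generic).  `P` has row sums 1 and column sums 1, `N = card Ω`.  With `Δ_t = P^t - 1/N`
one has `Δ_(s+t) = Δ_s * Δ_t` (as `P^s * J = J = J * P^t`, `J * J = N J`), hence
`∑_y |Δ_(s+t) x y| ≤ ∑_z |Δ_s x z| * ∑_y |Δ_t z y|`. -/
theorem tv_submul {Ω : Type*} [Fintype Ω] [DecidableEq Ω] (P : Matrix Ω Ω ℝ)
    (hrow : ∀ x, ∑ y, P x y = 1) (hcol : ∀ y, ∑ x, P x y = 1) (s t : ℕ) (B : ℝ)
    (hB : ∀ z, (1 / 2) * ∑ y, |(P ^ t) z y - 1 / (Fintype.card Ω : ℝ)| ≤ B) (x : Ω) :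
    (1 / 2) * ∑ y, |(P ^ (s + t)) x y - 1 / (Fintype.card Ω : ℝ)| ≤
      2 * B * ((1 / 2) * ∑ y, |(P ^ s) x y - 1 / (Fintype.card Ω : ℝ)|) := by
  set u : ℝ := 1 / (Fintype.card Ω : ℝ) with hu
  have hN : (0 : ℝ) < (Fintype.card Ω : ℝ) := by
    have : 0 < Fintype.card Ω := Fintype.card_pos_iff.2 ⟨x⟩
    exact_mod_cast this
  have hNu : (Fintype.card Ω : ℝ) * u = 1 := by
    rw [hu]; field_simp
  have hkey : ∀ y, (P ^ (s + t)) x y - u = ∑ z, ((P ^ s) x z - u) * ((P ^ t) z y - u) := by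
    intro y
    have e : ∀ z, ((P ^ s) x z - u) * ((P ^ t) z y - u)
        = (P ^ s) x z * (P ^ t) z y - u * (P ^ s) x z - u * (P ^ t) z y + u * u := by
      intro z; ring
    simp only [e]
    rw [Finset.sum_add_distrib, Finset.sum_sub_distrib, Finset.sum_sub_distrib,
      ← Finset.mul_sum, ← Finset.mul_sum, pow_row_sum P hrow s x, pow_col_sum P hcol t y,
      Finset.sum_const, Finset.card_univ, nsmul_eq_mul, pow_add, Matrix.mul_apply]
    have : (Fintype.card Ω : ℝ) * (u * u) = u := by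
      rw [← mul_assoc, hNu, one_mul]
    rw [this]; ring
  have h1 : ∑ y, |(P ^ (s + t)) x y - u|
      ≤ ∑ z, |(P ^ s) x z - u| * ∑ y, |(P ^ t) z y - u| := by
    calc ∑ y, |(P ^ (s + t)) x y - u|
        ≤ ∑ y, ∑ z, |(P ^ s) x z - u| * |(P ^ t) z y - u| := by
          apply Finset.sum_le_sum
          intro y _
          rw [hkey y]
          calc |∑ z, ((P ^ s) x z - u) * ((P ^ t) z y - u)|
              ≤ ∑ z, |((P ^ s) x z - u) * ((P ^ t) z y - u)| := Finset.abs_sum_le_sum_abs _ _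
            _ = ∑ z, |(P ^ s) x z - u| * |(P ^ t) z y - u| := by
                simp only [abs_mul]
      _ = ∑ z, |(P ^ s) x z - u| * ∑ y, |(P ^ t) z y - u| := by
          rw [Finset.sum_comm]
          simp only [Finset.mul_sum]
  have h2 : ∑ z, |(P ^ s) x z - u| * ∑ y, |(P ^ t) z y - u|
      ≤ ∑ z, |(P ^ s) x z - u| * (2 * B) := by
    apply Finset.sum_le_sum
    intro z _
    apply mul_le_mul_of_nonneg_left _ (abs_nonneg _)
    have := hB z
    linarith
  rw [← Finset.sum_mul] at h2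
  nlinarith [h1, h2]

theorem switchQ_row {n : ℕ} (hn : 4 ≤ n) (d : Fin n → ℕ) (G : Omega d) :
    ∑ G', switchQ d G G' = 1 := by
  classical
  have hCpos : (0 : ℝ) < (n.choose 4 : ℝ) := by exact_mod_cast Nat.choose_pos hn
  have hcardP : ((Finset.powersetCard 4 (Finset.univ : Finset (Fin n))).card : ℝ)
      = (n.choose 4 : ℝ) := by
    rw [Finset.card_powersetCard, Finset.card_univ, Fintype.card_fin]
  have h1 := switchQ_sum d G (fun _ => 1)
  simp only [mul_one] at h1
  rw [h1, hcardP]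
  have h3 : ∀ S ∈ Finset.powersetCard 4 (Finset.univ : Finset (Fin n)),
      (∑ p ∈ pmPairs S, (1 : ℝ)) / ((pmPairs S).card : ℝ) = 1 := by
    intro S hS
    rw [Finset.sum_const, card_pmPairs (Finset.mem_powersetCard.mp hS).2]
    norm_num
  rw [Finset.sum_congr rfl h3, Finset.sum_const, nsmul_eq_mul, hcardP, mul_one]
  exact div_self hCpos.ne'

/-- UNIT M2.  The switch chain is doubly stochastic (`switchQ_sum` with `φ = 1`, `switchQ_symm`;
`pmPairs S` is nonempty for `|S| = 4`: see the proof of `mixing_of_moves_poincare` in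
P335_helper14/Chain.lean, where the row sums of `switchQ` are computed). -/
theorem switchP_row {n : ℕ} (hn : 4 ≤ n) (d : Fin n → ℕ) (G : Omega d) :
    ∑ G', switchP d G G' = 1 := by
  classical
  unfold switchP
  rw [Finset.sum_add_distrib, ← Finset.mul_sum, ← Finset.mul_sum, switchQ_row hn d G]
  have : ∑ G' : Omega d, (if G = G' then (1 : ℝ) else 0) = 1 := by
    rw [Finset.sum_ite_eq]
    simp
  rw [this]
  norm_num

theorem switchP_col {n : ℕ} (hn : 4 ≤ n) (d : Fin n → ℕ) (G' : Omega d) :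
    ∑ G, switchP d G G' = 1 := by
  classical
  unfold switchP
  rw [Finset.sum_add_distrib, ← Finset.mul_sum, ← Finset.mul_sum]
  have h2 : ∑ G : Omega d, switchQ d G G' = 1 := by
    rw [← switchQ_row hn d G']
    exact Finset.sum_congr rfl (fun G _ => switchQ_symm d G G')
  have : ∑ G : Omega d, (if G = G' then (1 : ℝ) else 0) = 1 := by
    rw [Finset.sum_ite_eq']
    simp
  rw [this, h2]
  norm_num

/-- UNIT M3.  From `tvDist ≤ 1/4` at all times `≥ T` to `tvDist ≤ (1/2)^(l+1)` at all times `≥ l T`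
(induction on `l ≥ 1`: `t = (t - T) + T`, M1 with `B = 1/4`, M2). -/
theorem tv_decay {n : ℕ} (hn : 4 ≤ n) (d : Fin n → ℕ) (T : ℕ)
    (hT : ∀ t : ℕ, T ≤ t → ∀ G : Omega d, tvDist d t G ≤ 1 / 4) :
    ∀ l : ℕ, 1 ≤ l → ∀ t : ℕ, l * T ≤ t → ∀ G : Omega d, tvDist d t G ≤ (1 / 2) ^ (l + 1) := by
  intro l hl
  induction l, hl using Nat.le_induction with
  | base =>
    intro t ht G
    have := hT t (by simpa using ht) G
    norm_num
    linarith
  | succ l hl ih =>
    intro t ht G
    have hle : T ≤ t := by nlinarith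
    have hlt : l * T ≤ t - T := by
      have : (l + 1) * T = l * T + T := by ring
      omega
    have h1 := ih (t - T) hlt G
    have h2 : tvDist d ((t - T) + T) G ≤ 2 * (1 / 4) * tvDist d (t - T) G := by
      have hB := fun z => hT T le_rfl z
      unfold tvDist at hB ⊢
      classical
      convert tv_submul (switchP d)
        (switchP_row hn d) (switchP_col hn d) (t - T) T (1 / 4) (by convert hB) G
    rw [Nat.sub_add_cancel hle] at h2
    calc tvDist d t G ≤ 2 * (1 / 4) * tvDist d (t - T) G := h2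
      _ ≤ 2 * (1 / 4) * (1 / 2) ^ (l + 1) := by
          apply mul_le_mul_of_nonneg_left h1 (by norm_num)
      _ = (1 / 2) ^ (l + 1 + 1) := by ring

end P308T
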