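import Mathlib
import Vale.Agent.Lib.P335_helper14.Defs

/-!
P308: Tutte's gadget graphs `T d` of the complete graph `K_n` with degree prescription `d`.
Statement-level definitions.
-/

namespace P308T

open P335h14

/-- vertices of the gadget graph: ports `(v,w)`, `v ≠ w` (one for every edge end of `K_n`),
and cores `(v,i)`, `i < n - 1 - d v`. -/
abbrev TV {n : ℕ} (d : Fin n → ℕ) : Type :=
  {p : Fin n × Fin n // p.1 ≠ p.2} ⊕ (Σ v : Fin n, Fin (n - 1 - d v))

/-- Tutte's gadget graph: port `(v,w)` is joined to port `(w,v)` and to all cores `(v,i)`. -/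
def T {n : ℕ} (d : Fin n → ℕ) : SimpleGraph (TV d) where
  Adj x y := match x, y with
    | Sum.inl p, Sum.inl q => q.1.1 = p.1.2 ∧ q.1.2 = p.1.1
    | Sum.inl p, Sum.inr c => p.1.1 = c.1
    | Sum.inr c, Sum.inl p => p.1.1 = c.1
    | Sum.inr _, Sum.inr _ => False
  symm := ⟨by
    intro x y h
    rcases x with p | c <;> rcases y with q | e
    · exact ⟨h.2.symm, h.1.symm⟩
    · exact h
    · exact h
    · exact h⟩
  loopless := ⟨by
    intro x h
    rcases x with p | c
    · exact p.2 h.1
    · exact h⟩

/-- lower the prescribed degrees of `u` and of `v` by one -/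
def lower {n : ℕ} (d : Fin n → ℕ) (u v : Fin n) : Fin n → ℕ :=
  fun x => if x = u ∨ x = v then d x - 1 else d x

end P308T
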