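import Vale.Agent.Lib.P308T.Defs
import Vale.Agent.Lib.P308_helper27.Bridge

namespace P308T

open P335h14

abbrev PMI' {V : Type*} (G : SimpleGraph V) : Type _ :=
  {σ : V → V // (∀ x, G.Adj x (σ x)) ∧ ∀ x, σ (σ x) = x}

abbrev NonNbr' {n : ℕ} (G : SimpleGraph (Fin n)) (v : Fin n) : Type :=
  {w : Fin n // w ≠ v ∧ ¬ G.Adj v w}

open Classical in
/-- the involution of `T d` made from a graph and bijections cores -> non-neighbours -/
noncomputable def mkInv {n : ℕ} (d : Fin n → ℕ) (G : SimpleGraph (Fin n))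
    (e : ∀ v, Fin (n - 1 - d v) ≃ NonNbr' G v) : TV d → TV d
  | Sum.inl p => if h : G.Adj p.1.1 p.1.2 then Sum.inl ⟨(p.1.2, p.1.1), fun h' => p.2 h'.symm⟩
      else Sum.inr ⟨p.1.1, (e p.1.1).symm ⟨p.1.2, fun h' => p.2 h'.symm, h⟩⟩
  | Sum.inr c => Sum.inl ⟨(c.1, (e c.1 c.2).1), fun h' => (e c.1 c.2).2.1 h'.symm⟩

theorem mkInv_adj {n : ℕ} (d : Fin n → ℕ) (G : SimpleGraph (Fin n))
    (e : ∀ v, Fin (n - 1 - d v) ≃ NonNbr' G v) (x : TV d) : (T d).Adj x (mkInv d G e x) := by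
  rcases x with p | c
  · by_cases h : G.Adj p.1.1 p.1.2
    · simp only [mkInv, dif_pos h]
      exact ⟨rfl, rfl⟩
    · simp only [mkInv, dif_neg h]
      exact rfl
  · exact rfl

theorem mkInv_invol {n : ℕ} (d : Fin n → ℕ) (G : SimpleGraph (Fin n))
    (e : ∀ v, Fin (n - 1 - d v) ≃ NonNbr' G v) (x : TV d) : mkInv d G e (mkInv d G e x) = x := by
  rcases x with p | c
  · by_cases h : G.Adj p.1.1 p.1.2
    · simp only [mkInv, dif_pos h, dif_pos h.symm]
    · simp only [mkInv, dif_neg h, Equiv.apply_symm_apply]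
  · have h : ¬ G.Adj c.1 (e c.1 c.2).1 := (e c.1 c.2).2.2
    simp only [mkInv, dif_neg h, Subtype.coe_eta, Equiv.symm_apply_apply]

/-- neighbours, non-neighbours and the vertex itself exhaust `Fin n` -/
theorem card_nonNbr_add {n : ℕ} (G : SimpleGraph (Fin n)) (v : Fin n) :
    Nat.card (NonNbr' G v) + (G.neighborSet v).ncard + 1 = n := by
  classical
  have h1 : Nat.card (NonNbr' G v) = (Finset.univ.filter (fun w => w ≠ v ∧ ¬ G.Adj v w)).card := by
    rw [Nat.card_eq_fintype_card, Fintype.card_subtype]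
  have h2 : (G.neighborSet v).ncard = (Finset.univ.filter (fun w => G.Adj v w)).card := by
    rw [← Set.ncard_coe_finset]
    congr 1
    ext w
    simp
  have h3 : (Finset.univ.filter (fun w => w ≠ v ∧ ¬ G.Adj v w)).card
      + (Finset.univ.filter (fun w => G.Adj v w)).card + 1 = (Finset.univ : Finset (Fin n)).card := by
    have hdis : Disjoint (Finset.univ.filter (fun w => w ≠ v ∧ ¬ G.Adj v w))
        (Finset.univ.filter (fun w => G.Adj v w)) := by
      rw [Finset.disjoint_filter]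
      intro w _ h1 h2
      exact h1.2 h2
    have hv : v ∉ (Finset.univ.filter (fun w => w ≠ v ∧ ¬ G.Adj v w))
        ∪ (Finset.univ.filter (fun w => G.Adj v w)) := by
      simp
    rw [← Finset.card_union_of_disjoint hdis, ← Finset.card_insert_of_notMem hv]
    congr 1
    ext w
    simp only [Finset.mem_insert, Finset.mem_union, Finset.mem_filter, Finset.mem_univ, true_and,
      iff_true]
    by_cases hw : w = v
    · exact Or.inl hw
    · by_cases ha : G.Adj v w
      · exact Or.inr (Or.inr ha)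
      · exact Or.inr (Or.inl ⟨hw, ha⟩)
  rw [h1, h2, h3]
  simp

/-- the backward map -/
noncomputable def bwd {n : ℕ} (d : Fin n → ℕ)
    (x : Σ G : Omega d, ∀ v, (Fin (n - 1 - d v) ≃ NonNbr' G.1 v)) : PMI' (T d) :=
  ⟨mkInv d x.1.1 x.2, mkInv_adj d x.1.1 x.2, mkInv_invol d x.1.1 x.2⟩

theorem mkInv_port_iff {n : ℕ} (d : Fin n → ℕ) (G : SimpleGraph (Fin n))
    (e : ∀ v, Fin (n - 1 - d v) ≃ NonNbr' G v) (v w : Fin n) (h : v ≠ w) :
    G.Adj v w ↔ mkInv d G e (Sum.inl ⟨(v, w), h⟩) = Sum.inl ⟨(w, v), h.symm⟩ := by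
  by_cases ha : G.Adj v w
  · simp [mkInv, ha]
  · simp [mkInv, ha]

theorem bwd_injective {n : ℕ} (d : Fin n → ℕ) : Function.Injective (bwd d) := by
  rintro ⟨G, e⟩ ⟨G', e'⟩ h
  have hσ : mkInv d G.1 e = mkInv d G'.1 e' := congrArg Subtype.val h
  have hG : G = G' := by
    apply Subtype.ext
    ext v w
    by_cases hvw : v = w
    · subst hvw
      simp
    · rw [mkInv_port_iff d G.1 e v w hvw, mkInv_port_iff d G'.1 e' v w hvw, hσ]
  subst hG
  have he : e = e' := by
    funext v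
    ext i
    have := congrFun hσ (Sum.inr ⟨v, i⟩)
    simp only [mkInv, Sum.inl.injEq, Subtype.mk.injEq, Prod.mk.injEq, true_and] at this
    exact congrArg Fin.val this
  rw [he]

theorem bwd_surjective {n : ℕ} (d : Fin n → ℕ) (hd : ∀ v, d v ≤ n - 1) :
    Function.Surjective (bwd d) := by
  classical
  rintro ⟨σ, hadj, hinv⟩
  have hport : ∀ (v w : Fin n) (h : v ≠ w),
      σ (Sum.inl ⟨(v, w), h⟩) = Sum.inl ⟨(w, v), h.symm⟩ ∨
        ∃ i, σ (Sum.inl ⟨(v, w), h⟩) = Sum.inr ⟨v, i⟩ := by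
    intro v w h
    have := hadj (Sum.inl ⟨(v, w), h⟩)
    rcases hx : σ (Sum.inl ⟨(v, w), h⟩) with q | c
    · rw [hx] at this
      left
      obtain ⟨h1, h2⟩ := this
      congr 1
      apply Subtype.ext
      exact Prod.ext h1 h2
    · rw [hx] at this
      right
      obtain ⟨c1, c2⟩ := c
      have h' : v = c1 := this
      subst h'
      exact ⟨c2, rfl⟩
  have hcore : ∀ (v : Fin n) (i : Fin (n - 1 - d v)),
      ∃ w, ∃ h : v ≠ w, σ (Sum.inr ⟨v, i⟩) = Sum.inl ⟨(v, w), h⟩ := by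
    intro v i
    have := hadj (Sum.inr ⟨v, i⟩)
    rcases hx : σ (Sum.inr ⟨v, i⟩) with q | c
    · rw [hx] at this
      obtain ⟨⟨q1, q2⟩, hq⟩ := q
      have h' : q1 = v := this
      subst h'
      exact ⟨q2, hq, rfl⟩
    · rw [hx] at this
      exact this.elim
  choose f hf1 hf2 using hcore
  let G : SimpleGraph (Fin n) :=
    { Adj := fun v w => ∃ h : v ≠ w, σ (Sum.inl ⟨(v, w), h⟩) = Sum.inl ⟨(w, v), h.symm⟩
      symm := ⟨by
        rintro v w ⟨h, hs⟩
        refine ⟨h.symm, ?_⟩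
        rw [← hs, hinv]⟩
      loopless := ⟨by
        rintro v ⟨h, _⟩
        exact h rfl⟩ }
  have hnon : ∀ v i, ¬ G.Adj v (f v i) := by
    rintro v i ⟨h, hs⟩
    have h2 : σ (Sum.inl ⟨(v, f v i), h⟩) = Sum.inr ⟨v, i⟩ := by
      rw [← hf2 v i, hinv]
    rw [h2] at hs
    cases hs
  let F : ∀ v, Fin (n - 1 - d v) → NonNbr' G v := fun v i => ⟨f v i, (hf1 v i).symm, hnon v i⟩
  have hFbij : ∀ v, Function.Bijective (F v) := by
    intro v
    constructor
    · intro i j hij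
      have h1 : f v i = f v j := congrArg Subtype.val hij
      have h2 : σ (Sum.inr ⟨v, i⟩) = σ (Sum.inr ⟨v, j⟩) := by
        rw [hf2, hf2]
        simp [h1]
      have h3 := congrArg σ h2
      rw [hinv, hinv] at h3
      simpa using h3
    · rintro ⟨w, hwv, hna⟩
      rcases hport v w hwv.symm with h | ⟨i, hi⟩
      · exact (hna ⟨hwv.symm, h⟩).elim
      · refine ⟨i, ?_⟩
        apply Subtype.ext
        have h2 : σ (Sum.inr ⟨v, i⟩) = Sum.inl ⟨(v, w), hwv.symm⟩ := by rw [← hi, hinv]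
        rw [hf2] at h2
        simpa using h2
  let e : ∀ v, Fin (n - 1 - d v) ≃ NonNbr' G v := fun v => Equiv.ofBijective (F v) (hFbij v)
  have hdeg : ∀ v, (G.neighborSet v).ncard = d v := by
    intro v
    have h1 := card_nonNbr_add G v
    have h2 : Nat.card (NonNbr' G v) = n - 1 - d v := by
      rw [← Nat.card_congr (e v)]
      simp
    have := hd v
    omega
  refine ⟨⟨⟨G, hdeg⟩, e⟩, ?_⟩
  apply Subtype.ext
  funext x
  show mkInv d G e x = σ x
  rcases x with p | c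
  · obtain ⟨⟨v, w⟩, h⟩ := p
    by_cases ha : G.Adj v w
    · have h1 := (mkInv_port_iff d G e v w h).1 ha
      obtain ⟨h', hs⟩ := ha
      rw [h1, hs]
    · rcases hport v w h with h1 | ⟨i, hi⟩
      · exact (ha ⟨h, h1⟩).elim
      · rw [hi]
        have h2 : σ (Sum.inr ⟨v, i⟩) = Sum.inl ⟨(v, w), h⟩ := by rw [← hi, hinv]
        rw [hf2] at h2
        have h3 : f v i = w := by simpa using h2
        have h4 : (e v).symm ⟨w, h.symm, ha⟩ = i := by
          rw [Equiv.symm_apply_eq]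
          apply Subtype.ext
          exact h3.symm
        simp only [mkInv, dif_neg ha, h4]
  · obtain ⟨v, i⟩ := c
    rw [hf2]
    rfl

theorem tutte_equiv' {n : ℕ} (d : Fin n → ℕ) (hd : ∀ v, d v ≤ n - 1) :
    Nonempty (PMI' (T d) ≃ Σ G : Omega d, ∀ v, (Fin (n - 1 - d v) ≃ NonNbr' G.1 v)) :=
  ⟨(Equiv.ofBijective (bwd d) ⟨bwd_injective d, bwd_surjective d hd⟩).symm⟩

end P308T
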