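import Vale.Agent.Lib.P308T.Defs
import Vale.Agent.Lib.P308_helper27.Bridge
import Vale.Agent.Lib.P308T.TutteA1

/-!
P308T units A0, A1, A2: the number of perfect matchings of `T d` is `|Omega d| * ∏ (n-1-d v)!`.
-/

namespace P308T

open P335h14

/-- perfect matchings as involutions -/
abbrev PMI {V : Type*} (G : SimpleGraph V) : Type _ :=
  {σ : V → V // (∀ x, G.Adj x (σ x)) ∧ ∀ x, σ (σ x) = x}

open Vale.Agent.Lib.P308_helper27 in
/-- UNIT A0.  (Use `toInv`, `ofInv`, `toInv_inj`, `ofInv_perfect` of P308_helper27.Bridge.) -/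
theorem card_pm_eq {V : Type*} [Finite V] (G : SimpleGraph V) :
    Nat.card {M : G.Subgraph // M.IsPerfectMatching} = Nat.card (PMI G) := by
  refine Nat.card_congr (Equiv.ofBijective
    (fun M => ⟨toInv M.1 M.2.1, fun x => M.1.adj_sub (toInv_adj M.1 M.2.1 (M.2.2 x)),
      fun x => (toInv_isMatch M.1 M.2.1).invol x⟩) ⟨?_, ?_⟩)
  · intro M₁ M₂ h
    apply Subtype.ext
    exact toInv_inj M₁.1 M₂.1 M₁.2.1 M₂.2.1 (congrArg Subtype.val h)
  · intro σ
    have hm : IsMatch G σ.1 := ⟨σ.2.2, fun v _ => σ.2.1 v⟩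
    have hne : ∀ v, σ.1 v ≠ v := fun v e => (σ.2.1 v).ne e.symm
    refine ⟨⟨ofInv σ.1 hm hne, ofInv_perfect σ.1 hm hne⟩, ?_⟩
    apply Subtype.ext
    funext v
    exact toInv_eq (ofInv σ.1 hm hne) (ofInv_perfect σ.1 hm hne).1 (show σ.1 v = σ.1 v from rfl)

/-- the non-neighbours of `v` -/
abbrev NonNbr {n : ℕ} (G : SimpleGraph (Fin n)) (v : Fin n) : Type :=
  {w : Fin n // w ≠ v ∧ ¬ G.Adj v w}

/-- UNIT A1 (HARDEST).  A perfect matching σ of `T d` = a graph G (v ~ w iff σ(port v w) = port w v)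
together with, for each v, the bijection core (v,i) ↦ the w with σ(core(v,i)) = port (v,w), onto the
non-neighbours of v.  The degree of v in G is (n-1) - (n-1-d v) = d v. -/
theorem tutte_equiv {n : ℕ} (d : Fin n → ℕ) (hd : ∀ v, d v ≤ n - 1) :
    Nonempty (PMI (T d) ≃ Σ G : Omega d, ∀ v, (Fin (n - 1 - d v) ≃ NonNbr G.1 v)) :=
  tutte_equiv' d hd

theorem card_nonNbr {n : ℕ} (d : Fin n → ℕ) (G : Omega d) (v : Fin n) :
    Nat.card (NonNbr G.1 v) = n - 1 - d v := by
  classical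
  have h1 : (G.1.neighborSet v).ncard = d v := G.2 v
  have h2 : Nat.card (NonNbr G.1 v) = ({w : Fin n | w ≠ v ∧ ¬ G.1.Adj v w} : Set (Fin n)).ncard := rfl
  rw [h2]
  have h3 : ({w : Fin n | w ≠ v ∧ ¬ G.1.Adj v w} : Set (Fin n)) = (insert v (G.1.neighborSet v))ᶜ := by
    ext w
    simp [SimpleGraph.mem_neighborSet, not_or]
  rw [h3, Set.ncard_compl, Nat.card_eq_fintype_card, Fintype.card_fin,
    Set.ncard_insert_of_notMem (by simp), h1]
  omega

/-- UNIT A2.  Counting the right-hand side (`Fintype.card_equiv`, `Nat.card_sigma`, `Nat.card_pi`;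
`NonNbr G v` has `n - 1 - d v` elements). -/
theorem card_sigma {n : ℕ} (d : Fin n → ℕ) (hd : ∀ v, d v ≤ n - 1) :
    Nat.card (Σ G : Omega d, ∀ v, (Fin (n - 1 - d v) ≃ NonNbr G.1 v)) =
      Nat.card (Omega d) * ∏ v, (n - 1 - d v).factorial := by
  classical
  rw [Nat.card_sigma]
  have h : ∀ G : Omega d, Nat.card (∀ v, (Fin (n - 1 - d v) ≃ NonNbr G.1 v))
      = ∏ v, (n - 1 - d v).factorial := by
    intro G
    rw [Nat.card_pi]
    refine Finset.prod_congr rfl (fun v _ => ?_)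
    have hc : Fintype.card (Fin (n - 1 - d v)) = Fintype.card (NonNbr G.1 v) := by
      rw [Fintype.card_fin, ← Nat.card_eq_fintype_card, card_nonNbr]
    rw [Nat.card_eq_fintype_card, Fintype.card_equiv (Fintype.equivOfCardEq hc), Fintype.card_fin]
  simp only [h]
  rw [Finset.sum_const, Finset.card_univ, smul_eq_mul, Nat.card_eq_fintype_card]

theorem card_pm_T {n : ℕ} (d : Fin n → ℕ) (hd : ∀ v, d v ≤ n - 1) :
    Nat.card {M : (T d).Subgraph // M.IsPerfectMatching} =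
      Nat.card (Omega d) * ∏ v, (n - 1 - d v).factorial := by
  rw [card_pm_eq, Nat.card_congr (tutte_equiv d hd).some, card_sigma d hd]

end P308T
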