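import Vale.Agent.Lib.P308T.Chain
import Vale.Agent.Lib.P308T.Tutte

/-!
P308T: the telescoping product formula for `|Omega d|` and `Z(T d)`.
-/

namespace P308T

open P335h14

/-- `Pr[uv ∈ G]` for `G` uniform in `Omega d` -/
noncomputable def prAdj {n : ℕ} (d : Fin n → ℕ) (u v : Fin n) : ℝ :=
  (Nat.card {G : Omega d // G.1.Adj u v} : ℝ) / (Nat.card (Omega d) : ℝ)

/-- `Pr[uv ∉ G]` for `G` uniform in `Omega d` -/
noncomputable def prNon {n : ℕ} (d : Fin n → ℕ) (u v : Fin n) : ℝ :=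
  (Nat.card {G : Omega d // ¬ G.1.Adj u v} : ℝ) / (Nat.card (Omega d) : ℝ)

theorem exists_chain_fun {n : ℕ} (hn0 : 0 < n) (d : Fin n → ℕ) (hne : Nonempty (Omega d)) :
    ∃ (k : ℕ) (D : ℕ → Fin n → ℕ) (U V : ℕ → Fin n), 2 * k = ∑ x, d x ∧ D 0 = d ∧ D k = 0 ∧
      (∀ s < k, U s ≠ V s ∧ 1 ≤ D s (U s) ∧ 1 ≤ D s (V s) ∧
        D (s + 1) = lower (D s) (U s) (V s) ∧
        1 / ((n : ℝ) ^ 2 + 1) ≤ prAdj (D s) (U s) (V s) ∧
        1 / ((n : ℝ) ^ 2 + 1) ≤ prNon (D (s + 1)) (U s) (V s)) ∧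
      (Nat.card (Omega d) : ℝ) =
        ∏ s ∈ Finset.range k, prNon (D (s + 1)) (U s) (V s) / prAdj (D s) (U s) (V s) := by
  obtain ⟨k, D, h1, h2, h3, h4⟩ := exists_chain d hne
  have h5 : ∀ s : ℕ, ∃ u v : Fin n, s < k → (u ≠ v ∧ 1 ≤ D s u ∧ 1 ≤ D s v ∧ D (s + 1) = lower (D s) u v ∧
      0 < Nat.card {G : Omega (D s) // G.1.Adj u v} ∧
      Nat.card {G : Omega (D s) // G.1.Adj u v} = Nat.card {G : Omega (D (s + 1)) // ¬ G.1.Adj u v} ∧
      Nat.card (Omega (D s)) ≤ (n ^ 2 + 1) * Nat.card {G : Omega (D s) // G.1.Adj u v} ∧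
      Nat.card (Omega (D (s + 1))) ≤
        (n ^ 2 + 1) * Nat.card {G : Omega (D (s + 1)) // ¬ G.1.Adj u v}) := by
    intro s
    by_cases hs : s < k
    · obtain ⟨u, v, h⟩ := h4 s hs
      exact ⟨u, v, fun _ => h⟩
    · exact ⟨⟨0, hn0⟩, ⟨0, hn0⟩, fun h => absurd h hs⟩
  choose U V h6 using h5
  have hpos : ∀ s, s < k → (0 : ℝ) < (Nat.card {G : Omega (D s) // G.1.Adj (U s) (V s)} : ℝ) := by
    intro s hs
    exact_mod_cast (h6 s hs).2.2.2.2.1
  have hcpos : ∀ s, s < k → (0 : ℝ) < (Nat.card (Omega (D s)) : ℝ) := by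
    intro s hs
    have h := (h6 s hs).2.2.2.2.1
    have : Nonempty (Omega (D s)) := ⟨((Nat.card_pos_iff.mp h).1.some).1⟩
    exact_mod_cast Nat.card_pos
  have hcpos' : ∀ s, s < k → (0 : ℝ) < (Nat.card (Omega (D (s + 1))) : ℝ) := by
    intro s hs
    have h := (h6 s hs).2.2.2.2.1
    rw [(h6 s hs).2.2.2.2.2.1] at h
    have : Nonempty (Omega (D (s + 1))) := ⟨((Nat.card_pos_iff.mp h).1.some).1⟩
    exact_mod_cast Nat.card_pos
  refine ⟨k, D, U, V, h1, h2, h3, ?_, ?_⟩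
  · intro s hs
    obtain ⟨a1, a2, a3, a4, a5, a6, a7, a8⟩ := h6 s hs
    refine ⟨a1, a2, a3, a4, ?_, ?_⟩
    · unfold prAdj
      rw [div_le_div_iff₀ (by positivity) (hcpos s hs)]
      have : (Nat.card (Omega (D s)) : ℝ) ≤
          ((n : ℝ) ^ 2 + 1) * (Nat.card {G : Omega (D s) // G.1.Adj (U s) (V s)} : ℝ) := by
        exact_mod_cast a7
      linarith
    · unfold prNon
      rw [div_le_div_iff₀ (by positivity) (hcpos' s hs)]
      have : (Nat.card (Omega (D (s + 1))) : ℝ) ≤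
          ((n : ℝ) ^ 2 + 1) * (Nat.card {G : Omega (D (s + 1)) // ¬ G.1.Adj (U s) (V s)} : ℝ) := by
        exact_mod_cast a8
      linarith
  · have hstep : ∀ s ∈ Finset.range k, prNon (D (s + 1)) (U s) (V s) / prAdj (D s) (U s) (V s)
        = (Nat.card (Omega (D s)) : ℝ) / (Nat.card (Omega (D (s + 1))) : ℝ) := by
      intro s hs
      have hs' := Finset.mem_range.mp hs
      unfold prNon prAdj
      rw [← (h6 s hs').2.2.2.2.2.1]
      have e1 := hpos s hs'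
      have e2 := hcpos s hs'
      have e3 := hcpos' s hs'
      field_simp
    rw [Finset.prod_congr rfl hstep]
    have htel : ∀ j, j ≤ k → ∏ s ∈ Finset.range j,
        (Nat.card (Omega (D s)) : ℝ) / (Nat.card (Omega (D (s + 1))) : ℝ)
          = (Nat.card (Omega (D 0)) : ℝ) / (Nat.card (Omega (D j)) : ℝ) := by
      intro j
      induction j with
      | zero =>
        intro _
        have : (0 : ℝ) < (Nat.card (Omega (D 0)) : ℝ) := by
          rw [h2]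
          exact_mod_cast Nat.card_pos
        rw [Finset.prod_range_zero, div_self this.ne']
      | succ j ih =>
        intro hj
        rw [Finset.prod_range_succ, ih (by omega)]
        have e2 := hcpos j (by omega)
        have e3 := hcpos' j (by omega)
        field_simp
    rw [htel k le_rfl, h2, h3, card_omega_zero]
    simp

theorem Z_formula {n : ℕ} (hn0 : 0 < n) (d : Fin n → ℕ) (hne : Nonempty (Omega d)) :
    ∃ (k : ℕ) (D : ℕ → Fin n → ℕ) (U V : ℕ → Fin n), 2 * k = ∑ x, d x ∧ D 0 = d ∧ D k = 0 ∧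
      (∀ s < k, U s ≠ V s ∧ 1 ≤ D s (U s) ∧ 1 ≤ D s (V s) ∧
        D (s + 1) = lower (D s) (U s) (V s) ∧
        1 / ((n : ℝ) ^ 2 + 1) ≤ prAdj (D s) (U s) (V s) ∧
        1 / ((n : ℝ) ^ 2 + 1) ≤ prNon (D (s + 1)) (U s) (V s)) ∧
      (Nat.card {M : (T d).Subgraph // M.IsPerfectMatching} : ℝ) =
        (∏ v, ((n - 1 - d v).factorial : ℝ)) *
          ∏ s ∈ Finset.range k, prNon (D (s + 1)) (U s) (V s) / prAdj (D s) (U s) (V s) := by
  obtain ⟨k, D, U, V, h1, h2, h3, h4, h5⟩ := exists_chain_fun hn0 d hne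
  refine ⟨k, D, U, V, h1, h2, h3, h4, ?_⟩
  obtain ⟨G⟩ := hne
  rw [card_pm_T d (fun v => deg_le G v), ← h5]
  push_cast
  ring

end P308T
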