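import Vale.Agent.Lib.P308T.Sw

/-!
P308T units R1, R2, R3: one step of the self-reduction for graphs with given degrees.
-/

namespace P308T

open P335h14

theorem del_adj {n : ℕ} (G : SimpleGraph (Fin n)) (u v x y : Fin n) :
    (G \ SimpleGraph.edge u v).Adj x y ↔ G.Adj x y ∧ ¬ (x = u ∧ y = v ∨ x = v ∧ y = u) := by
  rw [SimpleGraph.sdiff_adj, SimpleGraph.edge_adj]
  constructor
  · rintro ⟨h1, h2⟩
    exact ⟨h1, fun h => h2 ⟨h, h1.ne⟩⟩
  · rintro ⟨h1, h2⟩
    exact ⟨h1, fun h => h2 h.1⟩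

theorem add_adj {n : ℕ} (G : SimpleGraph (Fin n)) {u v : Fin n} (huv : u ≠ v) (x y : Fin n) :
    (G ⊔ SimpleGraph.edge u v).Adj x y ↔ G.Adj x y ∨ (x = u ∧ y = v ∨ x = v ∧ y = u) := by
  rw [SimpleGraph.sup_adj, SimpleGraph.edge_adj]
  constructor
  · rintro (h | h)
    · exact Or.inl h
    · exact Or.inr h.1
  · rintro (h | h)
    · exact Or.inl h
    · refine Or.inr ⟨h, ?_⟩
      rcases h with ⟨rfl, rfl⟩ | ⟨rfl, rfl⟩
      · exact huv
      · exact huv.symm

theorem del_deg {n : ℕ} (G : SimpleGraph (Fin n)) {u v : Fin n} (h : G.Adj u v) (x : Fin n) :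
    ((G \ SimpleGraph.edge u v).neighborSet x).ncard =
      if x = u ∨ x = v then (G.neighborSet x).ncard - 1 else (G.neighborSet x).ncard := by
  have huv : u ≠ v := h.ne
  by_cases hxu : x = u
  · subst hxu
    rw [if_pos (Or.inl rfl)]
    have : (G \ SimpleGraph.edge x v).neighborSet x = G.neighborSet x \ {v} := by
      ext y
      simp only [SimpleGraph.mem_neighborSet, Set.mem_sdiff, Set.mem_singleton_iff, del_adj]
      grind
    rw [this]
    exact Set.ncard_sdiff_singleton_of_mem (by simpa using h)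
  by_cases hxv : x = v
  · subst hxv
    rw [if_pos (Or.inr rfl)]
    have : (G \ SimpleGraph.edge u x).neighborSet x = G.neighborSet x \ {u} := by
      ext y
      simp only [SimpleGraph.mem_neighborSet, Set.mem_sdiff, Set.mem_singleton_iff, del_adj]
      grind
    rw [this]
    exact Set.ncard_sdiff_singleton_of_mem (by simpa using h.symm)
  · rw [if_neg (by tauto)]
    congr 1
    ext y
    simp only [SimpleGraph.mem_neighborSet, del_adj]
    grind

theorem add_deg {n : ℕ} (G : SimpleGraph (Fin n)) {u v : Fin n} (huv : u ≠ v) (h : ¬ G.Adj u v)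
    (x : Fin n) :
    ((G ⊔ SimpleGraph.edge u v).neighborSet x).ncard =
      if x = u ∨ x = v then (G.neighborSet x).ncard + 1 else (G.neighborSet x).ncard := by
  by_cases hxu : x = u
  · subst hxu
    rw [if_pos (Or.inl rfl)]
    have : (G ⊔ SimpleGraph.edge x v).neighborSet x = insert v (G.neighborSet x) := by
      ext y
      simp only [SimpleGraph.mem_neighborSet, Set.mem_insert_iff, add_adj G huv]
      grind
    rw [this]
    exact Set.ncard_insert_of_notMem (by simpa using h)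
  by_cases hxv : x = v
  · subst hxv
    rw [if_pos (Or.inr rfl)]
    have : (G ⊔ SimpleGraph.edge u x).neighborSet x = insert u (G.neighborSet x) := by
      ext y
      simp only [SimpleGraph.mem_neighborSet, Set.mem_insert_iff, add_adj G huv]
      grind
    rw [this]
    exact Set.ncard_insert_of_notMem (by simpa using fun h' : G.Adj x u => h h'.symm)
  · rw [if_neg (by tauto)]
    congr 1
    ext y
    simp only [SimpleGraph.mem_neighborSet, add_adj G huv]
    grind

/-- UNIT R1.  Deleting / adding the edge uv is a bijection. -/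
theorem card_adj_eq {n : ℕ} (d : Fin n → ℕ) {u v : Fin n} (huv : u ≠ v)
    (hu : 1 ≤ d u) (hv : 1 ≤ d v) :
    Nat.card {G : Omega d // G.1.Adj u v} =
      Nat.card {G : Omega (lower d u v) // ¬ G.1.Adj u v} := by
  refine Nat.card_congr
    { toFun := fun G => ⟨⟨G.1.1 \ SimpleGraph.edge u v, ?_⟩, ?_⟩
      invFun := fun G => ⟨⟨G.1.1 ⊔ SimpleGraph.edge u v, ?_⟩, ?_⟩
      left_inv := ?_
      right_inv := ?_ }
  · intro x
    rw [del_deg G.1.1 G.2 x, G.1.2 x]
    rfl
  · rw [del_adj]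
    tauto
  · intro x
    rw [add_deg G.1.1 huv G.2 x, G.1.2 x]
    unfold lower
    split_ifs with hx
    · rcases hx with rfl | rfl <;> omega
    · rfl
  · rw [add_adj _ huv]
    tauto
  · intro G
    apply Subtype.ext
    apply Subtype.ext
    ext x y
    simp only [add_adj _ huv, del_adj]
    have h1 := G.2
    have h2 := G.2.symm
    grind
  · intro G
    apply Subtype.ext
    apply Subtype.ext
    ext x y
    simp only [add_adj _ huv, del_adj]
    have h1 := G.2
    have h2 : ¬ G.1.1.Adj v u := fun h => G.2 h.symm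
    grind

theorem count_aux {Ω β : Type*} [Finite Ω] {n : ℕ} (P : Ω → Prop) (emb : Ω → β)
    (hemb : Function.Injective emb) (r : Ω → Fin n → Fin n → β)
    (h : ∀ G, ¬ P G → ∃ (w z : Fin n) (G' : Ω), P G' ∧ r G' w z = emb G) :
    Nat.card Ω ≤ (n ^ 2 + 1) * Nat.card {G : Ω // P G} := by
  classical
  choose w z G' hP hr using (fun G : {G : Ω // ¬ P G} => h G.1 G.2)
  let f : {G : Ω // ¬ P G} → {G : Ω // P G} × Fin n × Fin n :=
    fun G => (⟨G' G, hP G⟩, w G, z G)
  have hf : Function.Injective f := by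
    intro G1 G2 h12
    simp only [f, Prod.mk.injEq, Subtype.mk.injEq] at h12
    obtain ⟨e1, e2, e3⟩ := h12
    apply Subtype.ext
    apply hemb
    rw [← hr G1, ← hr G2, e1, e2, e3]
  have h1 : Nat.card {G : Ω // ¬ P G} ≤ Nat.card ({G : Ω // P G} × Fin n × Fin n) :=
    Nat.card_le_card_of_injective f hf
  rw [Nat.card_prod, Nat.card_prod, Nat.card_eq_fintype_card (α := Fin n), Fintype.card_fin] at h1
  have h2 : Nat.card Ω = Nat.card {G : Ω // P G} + Nat.card {G : Ω // ¬ P G} := by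
    rw [← Nat.card_sum]
    exact Nat.card_congr (Equiv.sumCompl P).symm
  rw [h2]
  nlinarith

/-- UNIT R2.  `v` has maximum degree, `d u ≥ 1`.  Then `Pr[uv ∈ G] ≥ 1/(n^2+1)`.
Proof: let G have u,v non-adjacent.  u has a neighbour w (w ≠ v).  As d w ≤ d v and u ∈ N(w) \ N(v),
there is z ∈ N(v), z ≠ w, z ∉ N(w)  (else N(v)\{w} ⊆ N(w)\{v} misses u: count).  u,w,v,z distinct.
G* = sw G u w v z (remove uw, vz; add uv, wz) is in Omega d, contains uv, and
G = sw G* u v w z.  So G ↦ (G*, w, z) is injective from {G : not adj} into {G* : adj} × Fin n × Fin n. -/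
theorem card_le_adj {n : ℕ} (d : Fin n → ℕ) {u v : Fin n} (huv : u ≠ v)
    (hu : 1 ≤ d u) (hmax : ∀ w, d w ≤ d v) :
    Nat.card (Omega d) ≤ (n ^ 2 + 1) * Nat.card {G : Omega d // G.1.Adj u v} := by
  apply count_aux (fun G : Omega d => G.1.Adj u v) (fun G => G.1) Subtype.val_injective
    (fun G w z => sw G.1 u v w z)
  intro G hG
  -- a neighbour of u
  have hne : (G.1.neighborSet u).Nonempty := by
    rw [← Set.ncard_pos (Set.toFinite _), G.2 u]
    exact hu
  obtain ⟨w, hw⟩ := hne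
  have huw : G.1.Adj u w := hw
  have hwv : w ≠ v := by
    rintro rfl
    exact hG huw
  have hz : ∃ z, G.1.Adj v z ∧ z ≠ w ∧ ¬ G.1.Adj w z := by
    by_contra hcon
    push Not at hcon
    have hsub : insert u (G.1.neighborSet v \ {w}) ⊆ G.1.neighborSet w \ {v} := by
      intro x hx
      rcases hx with rfl | ⟨hx1, hx2⟩
      · exact ⟨huw.symm, huv⟩
      · exact ⟨hcon x hx1 hx2, (G.1.ne_of_adj hx1).symm⟩
    have hcard := Set.ncard_le_ncard hsub (Set.toFinite _)
    have hnot : u ∉ G.1.neighborSet v \ {w} := fun hx => hG (SimpleGraph.Adj.symm hx.1)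
    rw [Set.ncard_insert_of_notMem hnot (Set.toFinite _)] at hcard
    have hdv : 1 ≤ d v := hu.trans (hmax u)
    have hdw := hmax w
    by_cases hvw : G.1.Adj v w
    · rw [Set.ncard_sdiff_singleton_of_mem (show w ∈ G.1.neighborSet v from hvw),
        Set.ncard_sdiff_singleton_of_mem (show v ∈ G.1.neighborSet w from hvw.symm),
        G.2 v, G.2 w] at hcard
      omega
    · rw [Set.sdiff_singleton_eq_self (show w ∉ G.1.neighborSet v from hvw),
        Set.sdiff_singleton_eq_self (show v ∉ G.1.neighborSet w from fun h => hvw (SimpleGraph.Adj.symm h)),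
        G.2 v, G.2 w] at hcard
      omega
  obtain ⟨z, hvz, hzw, hwz⟩ := hz
  have huz : u ≠ z := by
    rintro rfl
    exact hG hvz.symm
  refine ⟨w, z, ⟨sw G.1 u w v z, fun x => ?_⟩, ?_, ?_⟩
  · rw [sw_degree G.1 huz hwv huw hvz hG hwz huv hzw.symm x]
    exact G.2 x
  · exact (sw_adj_new G.1 huv hzw.symm).1
  · exact sw_sw G.1 huz hwv huw hvz hG hwz huv hzw.symm

/-- UNIT R3.  `u` has minimum degree among the vertices `≠ v` of positive degree.  Then for
`d' = lower d u v`, `Pr_{d'}[uv ∉ G'] ≥ 1/(n^2+1)`.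
Proof: let G' ∈ Omega d' with u ~ v.  V+ = {x ≠ v : 1 ≤ d x} has ≥ d v elements (neighbours of v in a
realisation of d), N'(v) ⊆ V+ has d v - 1 elements: pick z ∈ V+ \ N'(v); z ≠ u, z ≠ v, deg' z = d z ≥ d u.
N'(u) has d u - 1 elements, contains v, and v ∉ N'(z); so N'(z)\{u} (≥ d u - 1 elements) is not contained in
N'(u)\{v} (d u - 2 elements): pick w ∈ N'(z), w ≠ u, w ∉ N'(u); w ≠ v, w ≠ z.
G'' = sw G' u v w z (remove uv, wz; add uw, vz) ∈ Omega d', uv ∉ G'', G' = sw G'' u w v z.
G' ↦ (G'', w, z) injective. -/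
theorem card_le_nonadj {n : ℕ} (d : Fin n → ℕ) {u v : Fin n} (huv : u ≠ v)
    (hu : 1 ≤ d u) (hv : 1 ≤ d v) (hne : Nonempty (Omega d))
    (hmin : ∀ z, z ≠ v → 1 ≤ d z → d u ≤ d z) :
    Nat.card (Omega (lower d u v)) ≤
      (n ^ 2 + 1) * Nat.card {G : Omega (lower d u v) // ¬ G.1.Adj u v} := by
  apply count_aux (fun G : Omega (lower d u v) => ¬ G.1.Adj u v) (fun G => G.1)
    Subtype.val_injective (fun G w z => sw G.1 u w v z)
  intro G hG
  have hG' : G.1.Adj u v := not_not.1 hG
  obtain ⟨G0⟩ := hne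
  have hlu : lower d u v u = d u - 1 := by simp [lower]
  have hlv : lower d u v v = d v - 1 := by simp [lower]
  -- choose z
  have hlt : (G.1.neighborSet v).ncard < (G0.1.neighborSet v).ncard := by
    rw [G.2 v, G0.2 v, hlv]
    omega
  obtain ⟨z, hz0, hz1⟩ := Set.exists_mem_notMem_of_ncard_lt_ncard hlt (Set.toFinite _)
  have hzv : z ≠ v := (G0.1.ne_of_adj hz0).symm
  have hvz : ¬ G.1.Adj v z := hz1
  have hzu : z ≠ u := by
    rintro rfl
    exact hvz hG'.symm
  have hdz : 1 ≤ d z := by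
    rw [← G0.2 z, Nat.succ_le_iff, Set.ncard_pos (Set.toFinite _)]
    exact ⟨v, SimpleGraph.Adj.symm hz0⟩
  have hlz : lower d u v z = d z := by simp [lower, hzu, hzv]
  have hduz := hmin z hzv hdz
  have hw : ∃ w, G.1.Adj z w ∧ w ≠ u ∧ ¬ G.1.Adj u w := by
    by_contra hcon
    push Not at hcon
    have hsub : insert v (G.1.neighborSet z \ {u}) ⊆ G.1.neighborSet u := by
      intro x hx
      rcases hx with rfl | ⟨hx1, hx2⟩
      · exact hG'
      · exact hcon x hx1 hx2
    have hcard := Set.ncard_le_ncard hsub (Set.toFinite _)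
    have hnot : v ∉ G.1.neighborSet z \ {u} := fun hx => hvz (SimpleGraph.Adj.symm hx.1)
    rw [Set.ncard_insert_of_notMem hnot (Set.toFinite _), G.2 u, hlu] at hcard
    have h3 := Set.pred_ncard_le_ncard_sdiff_singleton (G.1.neighborSet z) u
    rw [G.2 z, hlz] at h3
    omega
  obtain ⟨w, hzw, hwu, huw⟩ := hw
  have hwv : w ≠ v := by
    rintro rfl
    exact hvz hzw.symm
  refine ⟨w, z, ⟨sw G.1 u v w z, fun x => ?_⟩, ?_, ?_⟩
  · rw [sw_degree G.1 hzu.symm hwv.symm hG' hzw.symm huw hvz hwu.symm hzv.symm x]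
    exact G.2 x
  · exact (sw_adj_old G.1 hzu.symm hwv.symm huv (G.1.ne_of_adj hzw).symm hwu.symm hzv.symm).1
  · exact sw_sw G.1 hzu.symm hwv.symm hG' hzw.symm huw hvz hwu.symm hzv.symm

end P308T
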