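import Vale.Agent.Lib.P308T.Defs

/-!
P308T unit S: the switch `sw G a b c e` removes the edges ab, ce and adds the edges ac, be.
-/

namespace P308T

open P335h14

/-- remove `ab`, `ce`; add `ac`, `be` -/
def sw {n : ℕ} (G : SimpleGraph (Fin n)) (a b c e : Fin n) : SimpleGraph (Fin n) :=
  (G \ SimpleGraph.fromEdgeSet {s(a, b), s(c, e)}) ⊔ SimpleGraph.fromEdgeSet {s(a, c), s(b, e)}

theorem sw_adj {n : ℕ} (G : SimpleGraph (Fin n)) (a b c e x y : Fin n) :
    (sw G a b c e).Adj x y ↔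
      (G.Adj x y ∧ ¬ ((x = a ∧ y = b) ∨ (x = b ∧ y = a)) ∧ ¬ ((x = c ∧ y = e) ∨ (x = e ∧ y = c))) ∨
      (((x = a ∧ y = c) ∨ (x = c ∧ y = a) ∨ (x = b ∧ y = e) ∨ (x = e ∧ y = b)) ∧ x ≠ y) := by
  unfold sw
  rw [SimpleGraph.sup_adj, SimpleGraph.sdiff_adj, SimpleGraph.fromEdgeSet_adj,
    SimpleGraph.fromEdgeSet_adj]
  simp only [Set.mem_insert_iff, Set.mem_singleton_iff, Sym2.eq_iff]
  constructor
  · rintro (⟨h1, h2⟩ | ⟨h1, h2⟩)
    · left
      have hxy := h1.ne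
      refine ⟨h1, fun h => h2 ⟨Or.inl h, hxy⟩, fun h => h2 ⟨Or.inr h, hxy⟩⟩
    · right
      exact ⟨by tauto, h2⟩
  · rintro (⟨h1, h2, h3⟩ | ⟨h1, h2⟩)
    · left
      exact ⟨h1, by tauto⟩
    · right
      exact ⟨by tauto, h2⟩

theorem nbr_exchange {n : ℕ} (G H : SimpleGraph (Fin n)) (x p q : Fin n)
    (hp : G.Adj x p) (hq : ¬ G.Adj x q)
    (h : ∀ y, H.Adj x y ↔ (G.Adj x y ∧ y ≠ p) ∨ y = q) :
    (H.neighborSet x).ncard = (G.neighborSet x).ncard := by
  have h1 : H.neighborSet x = insert q (G.neighborSet x \ {p}) := by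
    ext y
    simp only [SimpleGraph.mem_neighborSet, Set.mem_insert_iff, Set.mem_sdiff,
      Set.mem_singleton_iff, h y]
    tauto
  rw [h1]
  exact Set.ncard_exchange (by simpa using hq) (by simpa using hp)

/-- UNIT S1.  Degrees are preserved.  (Hint: for each x compare neighbour sets; only x in {a,b,c,e}
changes: N(a) loses b and gains c, etc.  Set.ncard_insert_of_notMem / ncard_diff_singleton ... ) -/
theorem sw_degree {n : ℕ} (G : SimpleGraph (Fin n)) {a b c e : Fin n}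
    (hae : a ≠ e) (hbc : b ≠ c)
    (hab : G.Adj a b) (hce : G.Adj c e) (hac : ¬ G.Adj a c) (hbe : ¬ G.Adj b e)
    (hac' : a ≠ c) (hbe' : b ≠ e) (x : Fin n) :
    ((sw G a b c e).neighborSet x).ncard = (G.neighborSet x).ncard := by
  have hab' : a ≠ b := hab.ne
  have hce' : c ≠ e := hce.ne
  by_cases hxa : x = a
  · subst hxa
    refine nbr_exchange G _ x b c hab hac (fun y => ?_)
    rw [sw_adj]
    grind
  by_cases hxb : x = b
  · subst hxb
    refine nbr_exchange G _ x a e hab.symm hbe (fun y => ?_)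
    rw [sw_adj]
    grind
  by_cases hxc : x = c
  · subst hxc
    refine nbr_exchange G _ x e a hce (fun h => hac h.symm) (fun y => ?_)
    rw [sw_adj]
    grind
  by_cases hxe : x = e
  · subst hxe
    refine nbr_exchange G _ x c b hce.symm (fun h => hbe h.symm) (fun y => ?_)
    rw [sw_adj]
    grind
  · congr 1
    ext y
    simp only [SimpleGraph.mem_neighborSet]
    rw [sw_adj]
    grind

/-- UNIT S2.  Switching back. -/
theorem sw_sw {n : ℕ} (G : SimpleGraph (Fin n)) {a b c e : Fin n}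
    (hae : a ≠ e) (hbc : b ≠ c)
    (hab : G.Adj a b) (hce : G.Adj c e) (hac : ¬ G.Adj a c) (hbe : ¬ G.Adj b e)
    (hac' : a ≠ c) (hbe' : b ≠ e) :
    sw (sw G a b c e) a c b e = G := by
  have hab' : a ≠ b := hab.ne
  have hce' : c ≠ e := hce.ne
  have hba := hab.symm
  have hec := hce.symm
  have hca : ¬ G.Adj c a := fun h => hac h.symm
  have heb : ¬ G.Adj e b := fun h => hbe h.symm
  ext x y
  rw [sw_adj, sw_adj]
  have hne : G.Adj x y → x ≠ y := fun h => h.ne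
  grind

/-- UNIT S3.  Adjacency facts after the switch. -/
theorem sw_adj_new {n : ℕ} (G : SimpleGraph (Fin n)) {a b c e : Fin n} (hac' : a ≠ c) (hbe' : b ≠ e) :
    (sw G a b c e).Adj a c ∧ (sw G a b c e).Adj b e := by
  rw [sw_adj, sw_adj]
  exact ⟨Or.inr ⟨Or.inl ⟨rfl, rfl⟩, hac'⟩, Or.inr ⟨Or.inr (Or.inr (Or.inl ⟨rfl, rfl⟩)), hbe'⟩⟩

theorem sw_adj_old {n : ℕ} (G : SimpleGraph (Fin n)) {a b c e : Fin n}
    (hae : a ≠ e) (hbc : b ≠ c) (hab : a ≠ b) (hce : c ≠ e) (hac' : a ≠ c) (hbe' : b ≠ e) :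
    ¬ (sw G a b c e).Adj a b ∧ ¬ (sw G a b c e).Adj c e := by
  rw [sw_adj, sw_adj]
  grind

end P308T
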