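import Vale.Agent.Lib.P308T.Defs

/-!
P308T unit A1, backward half: from a graph `G` and bijections between the cores at `v` and the
non-neighbours of `v` to a perfect matching (involution) of the gadget graph `T d`.
-/

namespace P308T

open Classical in
/-- the involution built from `G` and the family `e` -/
noncomputable def backSigma {n : ℕ} {d : Fin n → ℕ} (G : SimpleGraph (Fin n))
    (e : ∀ v, Fin (n - 1 - d v) ≃ {w : Fin n // w ≠ v ∧ ¬ G.Adj v w}) : TV d → TV d
  | Sum.inl p =>
      if h : G.Adj p.1.1 p.1.2 then Sum.inl ⟨(p.1.2, p.1.1), p.2.symm⟩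
      else Sum.inr ⟨p.1.1, (e p.1.1).symm ⟨p.1.2, p.2.symm, h⟩⟩
  | Sum.inr c => Sum.inl ⟨(c.1, (e c.1 c.2).1), (e c.1 c.2).2.1.symm⟩

theorem exists_sigma_of_family {n : ℕ} {d : Fin n → ℕ} (G : SimpleGraph (Fin n))
    (e : ∀ v, Fin (n - 1 - d v) ≃ {w : Fin n // w ≠ v ∧ ¬ G.Adj v w}) :
    ∃ s : TV d → TV d, (∀ x, (T d).Adj x (s x)) ∧ (∀ x, s (s x) = x) ∧
      (∀ (v w : Fin n) (h : v ≠ w),
        s (Sum.inl ⟨(v, w), h⟩) = Sum.inl ⟨(w, v), h.symm⟩ ↔ G.Adj v w) ∧
      (∀ (v : Fin n) (i : Fin (n - 1 - d v)), ∃ h : v ≠ (e v i).1,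
        s (Sum.inr ⟨v, i⟩) = Sum.inl ⟨(v, (e v i).1), h⟩) := by
  classical
  refine ⟨backSigma G e, ?_, ?_, ?_, ?_⟩
  · intro x
    rcases x with p | c
    · by_cases h : G.Adj p.1.1 p.1.2
      · simp only [backSigma, h, dif_pos]
        exact ⟨rfl, rfl⟩
      · simp only [backSigma, h, dif_neg, not_false_eq_true]
        show p.1.1 = p.1.1
        rfl
    · simp only [backSigma]
      show c.1 = c.1
      rfl
  · intro x
    rcases x with p | c
    · by_cases h : G.Adj p.1.1 p.1.2
      · have h' : G.Adj p.1.2 p.1.1 := h.symm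
        simp only [backSigma, h, h', dif_pos]
      · simp only [backSigma, h, dif_neg, not_false_eq_true, Equiv.apply_symm_apply]
    · have h : ¬ G.Adj c.1 (e c.1 c.2).1 := (e c.1 c.2).2.2
      simp only [backSigma, h, dif_neg, not_false_eq_true, Subtype.coe_eta,
        Equiv.symm_apply_apply]
  · intro v w h
    by_cases hG : G.Adj v w
    · simp only [backSigma, hG, dif_pos]
    · simp only [backSigma, hG, dif_neg, not_false_eq_true, iff_false]
      intro hcon
      cases hcon
  · intro v i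
    exact ⟨(e v i).2.1.symm, rfl⟩

end P308T
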